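import Vale.Agent.P139Z.ODefs

/-! The integral operator at the singular point and its fixed point. -/

open Set Filter Topology MeasureTheory Complex
open scoped NNReal ENNReal ComplexConjugate ContDiff BoundedContinuousFunction

namespace Vale.Agent.P139Z.ShA

/-- The average `∫₀¹ θ^j h(θρ) dθ`. -/
noncomputable def Av (j : ℕ) (h : ℝ → ℂ) (ρ : ℝ) : ℂ := ∫ θ in (0 : ℝ)..1, (θ : ℂ) ^ j * h (θ * ρ)

/-- The regular solution `D` of `4ρD' + (24 + iρ)D = S`. -/
noncomputable def Top (S : ℝ → ℂ) (ρ : ℝ) : ℂ :=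
  cexp (-(I * ρ / 4)) / 4 * Av 5 (fun x => cexp (I * x / 4) * S x) ρ

theorem continuous_Av {X : Type*} [TopologicalSpace X] (j : ℕ) {h : X → ℝ → ℂ}
    (hh : Continuous h.uncurry) : Continuous fun p : X × ℝ => Av j (h p.1) p.2 := by
  refine intervalIntegral.continuous_parametric_intervalIntegral_of_continuous' ?_ 0 1
  have : Continuous fun p : (X × ℝ) × ℝ => h.uncurry (p.1.1, p.2 * p.1.2) := by fun_prop
  exact ((continuous_ofReal.comp continuous_snd).pow j).mul this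

theorem continuous_Top {X : Type*} [TopologicalSpace X] {S : X → ℝ → ℂ}
    (hS : Continuous S.uncurry) : Continuous fun p : X × ℝ => Top (S p.1) p.2 := by
  refine Continuous.mul (by fun_prop) (continuous_Av (h := fun a x => cexp (I * x / 4) * S a x) 5 ?_)
  exact Continuous.mul (by fun_prop) hS

theorem continuous_Av' (j : ℕ) {h : ℝ → ℂ} (hh : Continuous h) : Continuous (Av j h) :=
  (continuous_Av (X := Unit) (h := fun _ => h) j (hh.comp continuous_snd)).comp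
    (Continuous.prodMk_right ())

theorem continuous_Top' {S : ℝ → ℂ} (hS : Continuous S) : Continuous (Top S) :=
  Continuous.mul (by fun_prop) (continuous_Av' 5 (by fun_prop))

theorem Top_sub {S S' : ℝ → ℂ} (hS : Continuous S) (hS' : Continuous S') (ρ : ℝ) :
    Top S ρ - Top S' ρ = Top (fun x => S x - S' x) ρ := by
  rw [Top, Top, Top, ← mul_sub, Av, Av, Av, ← intervalIntegral.integral_sub]
  · simp only [mul_sub]
  all_goals exact Continuous.intervalIntegrable (by fun_prop) _ _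

theorem norm_e (x : ℝ) : ‖cexp (I * x / 4)‖ = 1 := by
  rw [norm_exp]; simp

theorem norm_Top_le {S : ℝ → ℂ} {ρ C : ℝ} (h : ∀ x, |x| ≤ |ρ| → ‖S x‖ ≤ C) :
    ‖Top S ρ‖ ≤ C / 4 := by
  have h1 : ‖Av 5 (fun x => cexp (I * x / 4) * S x) ρ‖ ≤ C * |1 - 0| := by
    refine intervalIntegral.norm_integral_le_of_norm_le_const fun θ hθ => ?_
    rw [uIoc_of_le zero_le_one] at hθ
    rw [norm_mul, norm_mul, norm_e, one_mul, norm_pow, norm_real, Real.norm_of_nonneg hθ.1.le]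
    refine (mul_le_of_le_one_left (norm_nonneg _) (pow_le_one₀ hθ.1.le hθ.2)).trans (h _ ?_)
    rw [abs_mul, abs_of_pos hθ.1]
    exact mul_le_of_le_one_left (abs_nonneg _) hθ.2
  rw [Top, norm_mul, norm_div, exp_neg, norm_inv, norm_e]
  simp only [sub_zero, abs_one, mul_one] at h1
  norm_num
  linarith

theorem norm_int_le {S : ℝ → ℂ} {c L : ℝ} (hc : 0 ≤ c) (hL : 0 ≤ L)
    (h : ∀ x, ‖S x‖ ≤ L * (c * Real.cosh (L * x))) (ρ : ℝ) :
    ‖∫ t in (0 : ℝ)..ρ, Top S t‖ ≤ c / 4 * Real.cosh (L * ρ) := by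
  have h1 : ∀ t, ‖Top S t‖ ≤ c / 4 * (Real.cosh (L * t) * L) := fun t => by
    refine (norm_Top_le (C := L * (c * Real.cosh (L * t))) fun x hx => (h x).trans ?_).trans_eq
      (by ring)
    gcongr
    rw [Real.cosh_le_cosh, abs_mul, abs_mul]
    gcongr
  have h2 : ∫ t in (0 : ℝ)..ρ, c / 4 * (Real.cosh (L * t) * L) = c / 4 * Real.sinh (L * ρ) := by
    rw [intervalIntegral.integral_eq_sub_of_hasDerivAt (f := fun t => c / 4 * Real.sinh (L * t))]
    · simp
    · intro t _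
      simpa using ((hasDerivAt_id t).const_mul L).sinh.const_mul (c / 4)
    · exact Continuous.intervalIntegrable (by fun_prop) _ _
  refine (intervalIntegral.norm_integral_le_abs_of_norm_le (Eventually.of_forall h1)
    (Continuous.intervalIntegrable (by fun_prop) _ _)).trans ?_
  rw [h2, abs_mul, abs_of_nonneg (by positivity : 0 ≤ c / 4), Real.abs_sinh, ← Real.cosh_abs]
  gcongr
  exact (Real.sinh_lt_cosh _).le

theorem exists_fix {X : Type} [TopologicalSpace X] {F : X → ℂ → ℂ} (hF : Continuous F.uncurry)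
    {L : X → ℝ} (hL : Continuous L) (hL0 : ∀ x, 0 ≤ L x)
    (hlip : ∀ x z w, ‖F x z - F x w‖ ≤ L x * ‖z - w‖) (h0 : ∀ x, F x 0 = 0) {q : X → ℂ}
    (hq : Continuous q) : ∃ G : X → ℝ → ℂ, Continuous G.uncurry ∧
      ∀ x ρ, G x ρ = q x + ∫ t in (0 : ℝ)..ρ, Top (fun s => F x (G x s)) t := by
  let w : X × ℝ → ℝ := fun p => (1 + ‖q p.1‖) * Real.cosh (L p.1 * p.2)
  have hw : Continuous w := by fun_prop
  have hw1 : ∀ p, 1 + ‖q p.1‖ ≤ w p := fun p =>
    le_mul_of_one_le_right (by positivity) (Real.one_le_cosh _)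
  have hw0 : ∀ p, 0 < w p := fun p => lt_of_lt_of_le (by positivity) (hw1 p)
  let S : ((X × ℝ) →ᵇ ℂ) → X → ℝ → ℂ := fun u x s => F x (w (x, s) * u (x, s))
  have hS : ∀ u, Continuous (S u).uncurry := fun u => by
    have : Continuous fun p : X × ℝ => F.uncurry (p.1, w p * u p) := by fun_prop
    exact this
  have hS' : ∀ u x, Continuous (S u x) := fun u x => (hS u).comp (Continuous.prodMk_right x)
  let V : ((X × ℝ) →ᵇ ℂ) → X × ℝ → ℂ := fun u p => ∫ t in (0 : ℝ)..p.2, Top (S u p.1) t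
  have hV : ∀ u, Continuous (V u) := fun u =>
    intervalIntegral.continuous_parametric_primitive_of_continuous
      (f := fun x t => Top (S u x) t) (continuous_Top (hS u))
  have hVV : ∀ u v p, ‖V u p - V v p‖ ≤ ‖u - v‖ / 4 * w p := by
    rintro u v ⟨x, ρ⟩
    have e : V u (x, ρ) - V v (x, ρ) = ∫ t in (0 : ℝ)..ρ, Top (fun s => S u x s - S v x s) t := by
      rw [← intervalIntegral.integral_sub ((continuous_Top' (hS' u x)).intervalIntegrable _ _)
        ((continuous_Top' (hS' v x)).intervalIntegrable _ _)]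
      simp only [Top_sub (hS' u x) (hS' v x)]
    rw [e]
    refine (norm_int_le (c := ‖u - v‖ * (1 + ‖q x‖)) (by positivity) (hL0 x) (fun s => ?_)
      ρ).trans_eq (by simp only [w]; ring)
    refine (hlip _ _ _).trans (mul_le_mul_of_nonneg_left ?_ (hL0 x))
    rw [← mul_sub, norm_mul, norm_real, Real.norm_of_nonneg (hw0 _).le, mul_comm (w _),
      mul_assoc ‖u - v‖]
    exact mul_le_mul_of_nonneg_right ((u - v).norm_coe_le_norm (x, s)) (hw0 _).le
  have hV0 : ∀ p, V 0 p = 0 := fun p => by simp [V, S, h0, Top, Av]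
  have hb : ∀ u p, ‖(q p.1 + V u p) / w p‖ ≤ 1 + ‖u‖ / 4 := fun u p => by
    have h1 := hVV u 0 p
    rw [hV0, sub_zero, sub_zero] at h1
    rw [norm_div, norm_real, Real.norm_of_nonneg (hw0 _).le, div_le_iff₀ (hw0 p)]
    have := norm_add_le (q p.1) (V u p)
    have := hw1 p
    linarith
  let Φ : ((X × ℝ) →ᵇ ℂ) → (X × ℝ) →ᵇ ℂ := fun u =>
    BoundedContinuousFunction.ofNormedAddCommGroup (fun p => (q p.1 + V u p) / w p)
      (((hq.comp continuous_fst).add (hV u)).div (continuous_ofReal.comp hw)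
        fun p => ofReal_ne_zero.2 (hw0 p).ne') _ (hb u)
  have hΦ : ∀ u p, Φ u p = (q p.1 + V u p) / w p := fun _ _ => rfl
  have hc : ContractingWith (1 / 4) Φ := by
    refine ⟨by norm_num, LipschitzWith.of_dist_le_mul fun u v => ?_⟩
    refine (BoundedContinuousFunction.dist_le (by positivity)).2 fun p => ?_
    rw [dist_eq_norm, dist_eq_norm, hΦ, hΦ, ← sub_div, add_sub_add_left_eq_sub, norm_div,
      norm_real, Real.norm_of_nonneg (hw0 _).le, div_le_iff₀ (hw0 p)]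
    refine (hVV u v p).trans_eq ?_
    push_cast
    ring
  obtain ⟨u, hu⟩ : ∃ u, Φ u = u := ⟨_, hc.fixedPoint_isFixedPt⟩
  refine ⟨fun x s => w (x, s) * u (x, s), ?_, fun x ρ => ?_⟩
  · have : Continuous fun p : X × ℝ => (w p : ℂ) * u p := by fun_prop
    exact this
  · have h1 := hΦ u (x, ρ)
    rw [hu, eq_div_iff (ofReal_ne_zero.2 (hw0 _).ne'), mul_comm] at h1
    exact h1

/-! ### the differential equation and regularity -/

theorem pow_mul_Av (j : ℕ) (h : ℝ → ℂ) (ρ : ℝ) :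
    (ρ : ℂ) ^ (j + 1) * Av j h ρ = ∫ x in (0 : ℝ)..ρ, (x : ℂ) ^ j * h x := by
  have h1 := intervalIntegral.smul_integral_comp_mul_right (a := 0) (b := 1)
    (fun x : ℝ => (x : ℂ) ^ j * h x) ρ
  rw [zero_mul, one_mul] at h1
  rw [← h1, Av, real_smul, pow_succ', mul_assoc, ← intervalIntegral.integral_const_mul]
  congr 2
  funext θ
  push_cast
  ring

theorem hasDerivAt_Av_pos (j : ℕ) {h : ℝ → ℂ} (hh : Continuous h) {ρ : ℝ} (hρ : 0 < ρ) :
    HasDerivAt (Av j h) ((h ρ - (j + 1) * Av j h ρ) / ρ) ρ := by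
  have hρ' : (ρ : ℂ) ≠ 0 := ofReal_ne_zero.2 hρ.ne'
  have h1 : HasDerivAt (fun y : ℝ => ∫ x in (0 : ℝ)..y, (x : ℂ) ^ j * h x) ((ρ : ℂ) ^ j * h ρ) ρ :=
    (Continuous.integral_hasStrictDerivAt (by fun_prop) 0 ρ).hasDerivAt
  have h2 := h1.div ((hasDerivAt_id ρ).ofReal_comp.pow (j + 1)) (pow_ne_zero _ hρ')
  refine (h2.congr_deriv ?_).congr_of_eventuallyEq ?_
  · simp only [id, Pi.pow_apply, ← pow_mul_Av, Nat.add_sub_cancel]
    push_cast
    field_simp
    ring
  · filter_upwards [Ioi_mem_nhds hρ] with y hy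
    have hy' : (y : ℂ) ≠ 0 := ofReal_ne_zero.2 (ne_of_gt hy)
    simp only [id, Pi.div_apply, Pi.pow_apply, ← pow_mul_Av]
    field_simp

theorem hasDerivAt_em (ρ : ℝ) : HasDerivAt (fun x : ℝ => cexp (-(I * x / 4)) / 4)
    (cexp (-(I * ρ / 4)) * (-(I / 4)) / 4) ρ := by
  have := ((((hasDerivAt_id ρ).ofReal_comp.const_mul I).div_const 4).neg.cexp).div_const 4
  simpa using this

theorem hasDerivAt_Top {S : ℝ → ℂ} (hS : Continuous S) {ρ : ℝ} (hρ : 0 < ρ) :
    HasDerivAt (Top S) ((S ρ - (24 + I * ρ) * Top S ρ) / (4 * ρ)) ρ := by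
  have hρ' : (ρ : ℂ) ≠ 0 := ofReal_ne_zero.2 hρ.ne'
  have h1 := (hasDerivAt_em ρ).mul (hasDerivAt_Av_pos 5
    (h := fun x => cexp (I * x / 4) * S x) (by fun_prop) hρ)
  refine h1.congr_deriv ?_
  have h2 := exp_ne_zero (I * ρ / 4)
  rw [Top, exp_neg]
  push_cast
  field_simp
  ring

theorem Top_zero (S : ℝ → ℂ) : Top S 0 = S 0 / 24 := by
  have h1 : ∫ θ in (0 : ℝ)..1, (θ : ℂ) ^ 5 = 1 / 6 := by
    simp only [← ofReal_pow, intervalIntegral.integral_ofReal, integral_pow]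
    norm_num
  simp only [Top, Av, mul_zero, ofReal_zero, zero_div, neg_zero, exp_zero, one_mul,
    intervalIntegral.integral_mul_const, h1]
  ring

theorem mul_mem_Icc {a b x θ : ℝ} (ha : a ≤ 0) (hb : 0 ≤ b) (hx : x ∈ Icc a b)
    (hθ : θ ∈ Icc (0 : ℝ) 1) : θ * x ∈ Icc a b :=
  ⟨by nlinarith [hx.1, hθ.1, hθ.2], by nlinarith [hx.2, hθ.1, hθ.2]⟩

theorem exists_Icc {a b x : ℝ} (ha : a < 0) (hb : 0 < b) (hx : x ∈ Ioo a b) :
    ∃ a' b', a' ≤ 0 ∧ 0 ≤ b' ∧ Icc a' b' ∈ 𝓝 x ∧ Icc a' b' ⊆ Ioo a b := by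
  obtain ⟨a', h1, h2⟩ := exists_between (lt_min ha hx.1)
  obtain ⟨b', h3, h4⟩ := exists_between (max_lt hb hx.2)
  exact ⟨a', b', (lt_min_iff.1 h2).1.le, (max_lt_iff.1 h3).1.le,
    Icc_mem_nhds (lt_min_iff.1 h2).2 (max_lt_iff.1 h3).2, Icc_subset_Ioo h1 h4⟩

theorem continuousOn_Av {a b : ℝ} (ha : a < 0) (hb : 0 < b) (j : ℕ) {h : ℝ → ℂ}
    (hh : ContinuousOn h (Ioo a b)) : ContinuousOn (Av j h) (Ioo a b) := by
  intro x hx
  obtain ⟨a', b', h1, h2, h3, h4⟩ := exists_Icc ha hb hx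
  have hc : Continuous fun y => h (projIcc a' b' (h1.trans h2) y) :=
    hh.comp_continuous (continuous_subtype_val.comp continuous_projIcc)
      fun y => h4 (Subtype.prop _)
  refine ((continuous_Av' j hc).continuousAt.congr ?_).continuousWithinAt
  filter_upwards [h3] with y hy
  refine intervalIntegral.integral_congr fun θ hθ => ?_
  rw [uIcc_of_le zero_le_one] at hθ
  simp only [projIcc_of_mem _ (mul_mem_Icc h1 h2 hy hθ)]

theorem hasDerivAt_Av {a b : ℝ} (ha : a < 0) (hb : 0 < b) (j : ℕ) {h : ℝ → ℂ}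
    (hd : DifferentiableOn ℝ h (Ioo a b)) (hc : ContinuousOn (deriv h) (Ioo a b)) {x : ℝ}
    (hx : x ∈ Ioo a b) : HasDerivAt (Av j h) (Av (j + 1) (deriv h) x) x := by
  obtain ⟨a', b', h1, h2, h3, h4⟩ := exists_Icc ha hb hx
  obtain ⟨C, hC⟩ := isCompact_Icc.exists_bound_of_continuousOn (hc.mono h4)
  have hI : ∀ (i : ℕ) (g : ℝ → ℂ), ContinuousOn g (Ioo a b) → ∀ y ∈ Icc a' b',
      IntervalIntegrable (fun θ : ℝ => (θ : ℂ) ^ i * g (θ * y)) volume 0 1 := fun i g hg y hy => by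
    refine ContinuousOn.intervalIntegrable_of_Icc zero_le_one (ContinuousOn.mul (by fun_prop) ?_)
    exact hg.comp (by fun_prop) fun θ hθ => h4 (mul_mem_Icc h1 h2 hy hθ)
  have hx' := mem_of_mem_nhds h3
  refine (intervalIntegral.hasDerivAt_integral_of_dominated_loc_of_deriv_le
    (F' := fun y θ => (θ : ℂ) ^ (j + 1) * deriv h (θ * y)) (bound := fun _ => C) h3 ?_
    (hI j h hd.continuousOn x hx') (hI _ _ hc x hx').def'.aestronglyMeasurable ?_
    intervalIntegrable_const ?_).2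
  · filter_upwards [h3] with y hy using (hI j h hd.continuousOn y hy).def'.aestronglyMeasurable
  · refine Eventually.of_forall fun θ hθ y hy => ?_
    rw [uIoc_of_le zero_le_one] at hθ
    rw [norm_mul, norm_pow, norm_real, Real.norm_of_nonneg hθ.1.le]
    exact (mul_le_of_le_one_left (norm_nonneg _) (pow_le_one₀ hθ.1.le hθ.2)).trans
      (hC _ (mul_mem_Icc h1 h2 hy (Ioc_subset_Icc_self hθ)))
  · refine Eventually.of_forall fun θ hθ y hy => ?_
    rw [uIoc_of_le zero_le_one] at hθ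
    have h5 := (hd.differentiableAt (isOpen_Ioo.mem_nhds
      (h4 (mul_mem_Icc h1 h2 hy (Ioc_subset_Icc_self hθ))))).hasDerivAt
    refine ((h5.scomp y ((hasDerivAt_id y).const_mul θ)).const_mul ((θ : ℂ) ^ j)).congr_deriv ?_
    rw [real_smul]
    push_cast
    ring

theorem contDiffOn_Av {a b : ℝ} (ha : a < 0) (hb : 0 < b) (n : ℕ) : ∀ (j : ℕ) {h : ℝ → ℂ},
    ContDiffOn ℝ n h (Ioo a b) → ContDiffOn ℝ n (Av j h) (Ioo a b) := by
  induction n with
  | zero => exact fun j h hh => contDiffOn_zero.2 (continuousOn_Av ha hb j hh.continuousOn)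
  | succ n ih =>
    intro j h hh
    push_cast at hh ⊢
    obtain ⟨h1, -, h2⟩ := (contDiffOn_succ_iff_deriv_of_isOpen isOpen_Ioo).1 hh
    have h3 := fun x hx => hasDerivAt_Av ha hb j h1 h2.continuousOn (x := x) hx
    exact (contDiffOn_succ_iff_deriv_of_isOpen isOpen_Ioo).2
      ⟨fun x hx => (h3 x hx).differentiableAt.differentiableWithinAt, by simp,
        (ih (j + 1) h2).congr fun x hx => (h3 x hx).deriv⟩

theorem contDiffOn_Top {a b : ℝ} (ha : a < 0) (hb : 0 < b) (n : ℕ) {S : ℝ → ℂ}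
    (hS : ContDiffOn ℝ n S (Ioo a b)) : ContDiffOn ℝ n (Top S) (Ioo a b) := by
  have h1 : ContDiff ℝ n fun x : ℝ => I * x / 4 :=
    (contDiff_const.mul ofRealCLM.contDiff).div_const 4
  exact (h1.neg.cexp.div_const 4).contDiffOn.mul
    (contDiffOn_Av ha hb n 5 (h1.cexp.contDiffOn.mul hS))

/-! ### the truncated nonlinearity -/

theorem Ntr_lip {m : ℕ} (hm : 1 ≤ m) :
    ∃ L : ℝ, 0 ≤ L ∧ ∀ z w, ‖Ntr m z - Ntr m w‖ ≤ L * ‖z - w‖ := by
  refine ⟨2 + 2 * ((2 * m : ℕ) * 2 ^ (2 * m - 1)), by positivity, ?_⟩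
  have h4 : (2 : ℝ) ≤ 2 ^ (2 * m) := le_self_pow₀ one_le_two (by omega)
  have key : ∀ z w : ℂ, ‖w‖ ≤ ‖z‖ →
      ‖Ntr m z - Ntr m w‖ ≤ (2 + 2 * ((2 * m : ℕ) * 2 ^ (2 * m - 1))) * ‖z - w‖ := by
    intro z w h
    have hp : ‖w‖ ^ (2 * m) ≤ ‖z‖ ^ (2 * m) := pow_le_pow_left₀ (norm_nonneg _) h _
    have e : Ntr m z - Ntr m w = ((min (‖z‖ ^ (2 * m)) 2 : ℝ) : ℂ) * (z - w) +
        ((min (‖z‖ ^ (2 * m)) 2 - min (‖w‖ ^ (2 * m)) 2 : ℝ) : ℂ) * w := by
      rw [Ntr, Ntr]; push_cast; ring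
    have h1 : ‖((min (‖z‖ ^ (2 * m)) 2 : ℝ) : ℂ) * (z - w)‖ ≤ 2 * ‖z - w‖ := by
      rw [norm_mul, norm_real, Real.norm_of_nonneg (le_min (by positivity) zero_le_two)]
      exact mul_le_mul_of_nonneg_right (min_le_right _ _) (norm_nonneg _)
    have h2 : ‖((min (‖z‖ ^ (2 * m)) 2 - min (‖w‖ ^ (2 * m)) 2 : ℝ) : ℂ) * w‖ ≤
        2 * ((2 * m : ℕ) * 2 ^ (2 * m - 1)) * ‖z - w‖ := by
      rw [norm_mul, norm_real, Real.norm_of_nonneg (sub_nonneg.2 (min_le_min_right _ hp))]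
      rcases le_total 2 (‖w‖ ^ (2 * m)) with h5 | h5
      · rw [min_eq_right h5, min_eq_right (h5.trans hp), sub_self, zero_mul]
        positivity
      · have h6 : ‖w‖ ≤ 2 := le_of_pow_le_pow_left₀ (by omega) zero_le_two (h5.trans h4)
        have h7 : ‖w‖ ≤ min ‖z‖ 2 := le_min h h6
        have h8 : min (‖z‖ ^ (2 * m)) 2 ≤ min ‖z‖ 2 ^ (2 * m) := by
          rcases le_total ‖z‖ 2 with h9 | h9
          · rw [min_eq_left h9]; exact min_le_left _ _
          · rw [min_eq_right h9]; exact (min_le_right _ _).trans h4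
        have h9 := (le_abs_self _).trans (abs_pow_sub_pow_le (min ‖z‖ 2) ‖w‖ (2 * m))
        rw [abs_of_nonneg (sub_nonneg.2 h7), abs_of_nonneg ((norm_nonneg _).trans h7), abs_norm,
          max_eq_left h7] at h9
        have h10 : min ‖z‖ 2 - ‖w‖ ≤ ‖z - w‖ :=
          (sub_le_sub_right (min_le_left _ _) _).trans (norm_sub_norm_le z w)
        have h11 : min ‖z‖ 2 ^ (2 * m - 1) ≤ 2 ^ (2 * m - 1) :=
          pow_le_pow_left₀ ((norm_nonneg _).trans h7) (min_le_right _ _) _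
        rw [min_eq_left h5]
        calc (min (‖z‖ ^ (2 * m)) 2 - ‖w‖ ^ (2 * m)) * ‖w‖
            ≤ (‖z - w‖ * (2 * m : ℕ) * 2 ^ (2 * m - 1)) * 2 := by
              refine mul_le_mul ((sub_le_sub_right h8 _).trans (h9.trans ?_)) h6 (norm_nonneg _)
                (by positivity)
              have := (norm_nonneg _).trans h7
              gcongr
          _ = _ := by ring
    rw [e, add_mul]
    exact (norm_add_le _ _).trans (add_le_add h1 h2)
  intro z w
  rcases le_total ‖w‖ ‖z‖ with h | h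
  · exact key z w h
  · rw [norm_sub_rev, norm_sub_rev z]; exact key w z h

theorem continuous_Ntr (m : ℕ) : Continuous (Ntr m) := by
  unfold Ntr; fun_prop

theorem isCore {m : ℕ} {β : ℝ} {G : ℝ → ℂ} (hG : Continuous G) {q : ℂ}
    (h : ∀ ρ, G ρ = q + ∫ t in (0 : ℝ)..ρ, Top (fun s => Ntr m (G s) - I * Lam m β * G s) t) :
    IsCore m β G ∧ deriv G = Top fun s => Ntr m (G s) - I * Lam m β * G s := by
  set S : ℝ → ℂ := fun s => Ntr m (G s) - I * Lam m β * G s with hS_def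
  have hS : Continuous S := ((continuous_Ntr m).comp hG).sub (continuous_const.mul hG)
  have hT := continuous_Top' hS
  have hd : ∀ ρ, HasDerivAt G (Top S ρ) ρ := fun ρ => by
    rw [funext h]
    exact (hT.integral_hasStrictDerivAt 0 ρ).hasDerivAt.const_add q
  have hD : deriv G = Top S := funext fun ρ => (hd ρ).deriv
  have hdiff : Differentiable ℝ G := fun ρ => (hd ρ).differentiableAt
  refine ⟨⟨contDiff_one_iff_deriv.2 ⟨hdiff, hD ▸ hT⟩, ?_, fun ρ hρ => ?_, fun b hb h2 => ?_⟩, hD⟩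
  · rw [show (2 : WithTop ℕ∞) = 0 + 1 + 1 from rfl, contDiffOn_succ_iff_deriv_of_isOpen isOpen_Ioi,
      contDiffOn_succ_iff_deriv_of_isOpen isOpen_Ioi, hD]
    refine ⟨hdiff.differentiableOn, by simp,
      fun x hx => (hasDerivAt_Top hS hx).differentiableAt.differentiableWithinAt, by simp,
      contDiffOn_zero.2 (ContinuousOn.congr ?_ fun x hx => (hasDerivAt_Top hS hx).deriv)⟩
    exact ContinuousOn.div (by fun_prop) (by fun_prop) fun x hx =>
      mul_ne_zero (by norm_num) (ofReal_ne_zero.2 (ne_of_gt hx))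
  · rw [Mop, iteratedDeriv_succ, iteratedDeriv_one, hD]
    rcases hρ.eq_or_lt with rfl | hρ
    · rw [Top_zero]; simp only [hS_def]; push_cast; ring
    · have hρ' : (ρ : ℂ) ≠ 0 := ofReal_ne_zero.2 hρ.ne'
      rw [(hasDerivAt_Top hS hρ).deriv, mul_div_cancel₀ _ (mul_ne_zero (by norm_num) hρ')]
      simp only [hS_def]; push_cast; ring
  · have ho : IsOpen {ρ | ‖G ρ‖ ^ (2 * m) < 2} := isOpen_lt (by fun_prop) continuous_const
    obtain ⟨δ, hδ, hsub⟩ := isCompact_Icc.exists_thickening_subset_open ho h2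
    have h3 : ∀ ρ ∈ Ioo (-δ) (b + δ), ‖G ρ‖ ^ (2 * m) < 2 := fun ρ hρ => by
      refine hsub (Metric.mem_thickening_iff.2 ⟨projIcc 0 b hb ρ, Subtype.prop _, ?_⟩)
      rw [Real.dist_eq, coe_projIcc, abs_lt, max_def, min_def]
      obtain ⟨h4, h5⟩ := hρ
      split_ifs <;> constructor <;> linarith
    refine ⟨δ, hδ, contDiffOn_infty.2 fun n => ?_⟩
    induction n with
    | zero => exact contDiffOn_zero.2 hG.continuousOn
    | succ n ih =>
      push_cast
      rw [contDiffOn_succ_iff_deriv_of_isOpen isOpen_Ioo, hD]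
      refine ⟨hdiff.differentiableOn, by simp, contDiffOn_Top (by linarith) (by linarith) n ?_⟩
      have h4 := ((ofRealCLM.contDiff.comp_contDiffOn ((ih.norm_sq ℂ).pow m)).mul ih).sub
        (contDiffOn_const (c := I * Lam m β).mul ih)
      refine h4.congr fun x hx => ?_
      simp only [hS_def, Ntr, Function.comp, ofRealCLM_apply]
      rw [min_eq_left (h3 x hx).le, pow_mul]

end Vale.Agent.P139Z.ShA
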